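import Vale.Agent.P050.Final

namespace Vale.Agent.Results.P050.Counterexample

theorem result :
    ∃ (a : ℕ) (H : SimpleGraph (Fin a)), H.IsBipartite ∧ H.edgeSet.Nonempty ∧
      ∃ (b : ℕ) (G : SimpleGraph (Fin b)), 0 < b ∧
        (Nat.card (H →g G) : ℝ) / (b : ℝ) ^ a <
          (2 * (G.edgeSet.ncard : ℝ) / (b : ℝ) ^ 2) ^ H.edgeSet.ncard := by
  obtain ⟨N, hN, G, hG⟩ :=
    Vale.Agent.P050.main_aux 30001 (12 * 30001) (by norm_num) ⟨15000, by norm_num⟩ rfl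
  refine ⟨22, Vale.Agent.P050.HH, Vale.Agent.P050.HH_bip, ?_, N, G, hN, ?_⟩
  · apply Set.nonempty_of_ncard_ne_zero
    rw [Vale.Agent.P050.HH_card]
    norm_num
  · rw [Vale.Agent.P050.HH_card]
    exact hG

end Vale.Agent.Results.P050.Counterexample
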